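import Vale.Agent.P216.H804.Split

/-!
# D6 (P216): the uniform bound, from the bars and the blocks of LOCAL
-/

open Set Topology

namespace Vale.Agent.P216.GM

open Vale.Agent.P265.AS Vale.Agent.P216.H41 L250 LS H288 H494

variable {M : Type} [MetricSpace M]

/-- The critical loops of one orientation form at most `#ι` orbits. -/
theorem exists_orbits_card (G : GeoList M) {e a : ℝ} (he : e = 1 ∨ e = -1) (ha : 0 < a) :
    ∃ R : Finset (LM M), (↑R : Set (LM M)) ⊆ G.KK e a ∧ G.KK e a = ⋃ g ∈ R, orb g ∧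
      (∀ g ∈ R, ∀ g' ∈ R, g ≠ g' → Disjoint (orb g) (orb g')) ∧ R.card ≤ Nat.card G.ι := by
  classical
  have := G.fin
  obtain ⟨R, hRf, hRK, hRU, hRd⟩ := exists_orbits (G := G) he ha
  refine ⟨hRf.toFinset, by simpa using hRK, by simpa using hRU, by simpa using hRd, ?_⟩
  have hj : ∀ g : hRf.toFinset, ∃ j : G.ι, ∃ b : ℝ, ∀ t, fn g.1 t = G.c j (e * a * t + b) :=
    fun g => hRK (hRf.mem_toFinset.1 g.2)
  choose j hj using hj
  have hinj : Function.Injective j := by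
    intro g g' hgg
    by_contra hne
    have h1 := hRd g.1 (hRf.mem_toFinset.1 g.2) g'.1 (hRf.mem_toFinset.1 g'.2)
      fun h => hne (Subtype.ext h)
    obtain ⟨b, hb⟩ := hj g
    obtain ⟨b', hb'⟩ := hj g'
    have h2 : g'.1 ∈ orb g.1 := (mem_orb_iff he ha hb hb').2 hgg
    exact Set.disjoint_left.1 h1 h2 (self_mem_orb _)
  have h3 := Nat.card_le_card_of_injective j hinj
  rw [← Set.ncard_eq_toFinset_card R hRf]
  simpa using h3

theorem levelBound [CompactSpace M] (hF1 : F1 M) (hLOC : LOC M) (hTW : TW M) (H : Hol M)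
    (G : GeoList M) (hD : DescentStmt H G) : (mkGSys H G hD).LevelBound := by
  classical
  obtain ⟨N, hN⟩ := hLOC G
  refine ⟨(Nat.card G.ι + Nat.card G.ι) * N, fun p hp hp2 c hc _ => ?_⟩
  obtain ⟨R₁, hK₁, hU₁, hd₁, hc₁⟩ := exists_orbits_card G (e := 1) (a := c) (Or.inl rfl) hc
  obtain ⟨R₂, hK₂, hU₂, hd₂, hc₂⟩ := exists_orbits_card G (e := -1) (a := c) (Or.inr rfl) hc
  have hdis := disjoint_KK (G := G) hc
  have hD' : ∀ g : LM M, ∃ D : ℕ → ℕ, (g ∈ R₁ ∪ R₂ → Tot D N ∧ LR (XL M) c (orb g) D) := by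
    intro g
    by_cases hg : g ∈ R₁ ∪ R₂
    · rcases Finset.mem_union.1 hg with h | h
      · obtain ⟨D, hD⟩ := hN 1 c (Or.inl rfl) hc g (hK₁ h)
        exact ⟨D, fun _ => hD⟩
      · obtain ⟨D, hD⟩ := hN (-1) c (Or.inr rfl) hc g (hK₂ h)
        exact ⟨D, fun _ => hD⟩
    · exact ⟨0, fun h => absurd h hg⟩
  choose D hD' using hD'
  obtain ⟨e₀, he₀, h⟩ := hF1 H G c hc (R₁ ∪ R₂) (by
      rw [Finset.coe_union]
      exact union_subset_union hK₁ hK₂) (by
      rw [Finset.set_biUnion_union, ← hU₁, ← hU₂]) (by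
      intro g hg g' hg' hne
      rcases Finset.mem_union.1 hg with h1 | h1 <;> rcases Finset.mem_union.1 hg' with h2 | h2
      · exact hd₁ g h1 g' h2 hne
      · exact hdis.mono (orb_subset_KK (hK₁ h1)) (orb_subset_KK (hK₂ h2))
      · exact hdis.symm.mono (orb_subset_KK (hK₂ h1)) (orb_subset_KK (hK₁ h2))
      · exact hd₂ g h1 g' h2 hne) D (by
      intro g hg
      rcases Finset.mem_union.1 hg with h1 | h1
      · exact hTW H G 1 c (Or.inl rfl) hc g (hK₁ h1) _ (hD' g hg).2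
      · exact hTW H G (-1) c (Or.inr rfl) hc g (hK₂ h1) _ (hD' g hg).2)
  refine ⟨e₀, he₀, fun s t h1 h2 h3 h4 m => ?_⟩
  calc ∑ q ∈ Finset.range m, hh deckC (-1 : ZMod p) (XT H t) (XT H s) q
      ≤ ∑ q ∈ Finset.range m, ((∑ g ∈ R₁ ∪ R₂, D g q : ℕ) : Cardinal) :=
        Finset.sum_le_sum fun q _ => h s t h1 h2 h3 h4 (ZMod p) q
    _ = ((∑ g ∈ R₁ ∪ R₂, ∑ q ∈ Finset.range m, D g q : ℕ) : Cardinal) := by
        rw [← Nat.cast_sum, Finset.sum_comm]
    _ ≤ (((Nat.card G.ι + Nat.card G.ι) * N : ℕ) : Cardinal) := by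
        have h5 : ∑ g ∈ R₁ ∪ R₂, ∑ q ∈ Finset.range m, D g q ≤ ∑ _g ∈ R₁ ∪ R₂, N :=
          Finset.sum_le_sum fun g hg => (hD' g hg).1 m
        rw [Finset.sum_const, smul_eq_mul] at h5
        have h6 := (Finset.card_union_le R₁ R₂).trans (add_le_add hc₁ hc₂)
        exact_mod_cast h5.trans (Nat.mul_le_mul_right N h6)

/-- **D6** from D5 and the blocks of LOCAL. -/
theorem bound [CompactSpace M] {ρ : ℝ} (hρ : 0 < ρ) (h : UniqSeg M ρ) (hLOC : LOC M) (hTW : TW M)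
    (H : Hol M) (G : GeoList M) (hD : DescentStmt H G) (hB : (mkGSys H G hD).Bars) :
    (mkGSys H G hD).Bound :=
  (mkGSys H G hD).bound_of_bars hB (levelBound (f1 hρ h) hLOC hTW H G hD)

end Vale.Agent.P216.GM
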