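import Vale.Agent.P216.Spine.Contract
import Vale.Agent.P216.Bor.Reg
import Vale.Agent.P265.H336.Level

/-!
# Counting over levels (P216, block GM6): D5 and a bound of every critical level give D6
-/

open Set Topology
open Module (finrank)

namespace Vale.Agent.P216.H804

open Vale.Agent.P265.AS

/-! ### Cohomology -/

section Coh

variable {E : Type} [PseudoMetricSpace E] {k : Type} [Field k] {g : E → E} {χ : k}

/-- If the restriction `H^p(X) → H^p(A)` is zero, the connecting map `H^p(A) → H^{p+1}(X, A)` is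
injective. -/
theorem hh_le_of_zero_res {X A : Set E} (hgA : Inv g A) {p : ℕ}
    (h : Zs g χ X ∅ p ≤ Bs g χ A ∅ p) : hh g χ A ∅ p ≤ hh g χ X A (p + 1) := by
  refine qr_le_of_inj (dL E k (p + 1) ∘ₗ rs k A (p + 1)) ?_ ?_
  · rintro c ⟨hc, ε, hε, h1, -⟩
    refine ⟨(rs_eqv (X := X) hgA hc).d, ε, hε, fun x hx => ?_, fun x hx => ?_⟩
    · change d (d _) x = 0
      rw [d_d]; rfl
    · change d (rs k A (p + 1) c) x = 0
      rw [d_rs hx.1, h1 x hx]
  · rintro c ⟨hc, ε, hε, h1, -⟩ ⟨b, hb, ε', hε', h1', h2'⟩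
    have hz : rs k A (p + 1) c - b ∈ Zs g χ X ∅ p := by
      refine ⟨(rs_eqv hgA hc).sub hb, ε', hε', fun x hx => ?_,
        fun x hx => absurd (hx.1 0) (notMem_empty _)⟩
      have := h1' x hx
      change d (rs k A (p + 1) c) x = d b x at this
      rw [d_sub, Pi.sub_apply, this, sub_self]
    refine Bs_congr (h hz) (δ := ε') hε' fun x hx => ?_
    rw [Pi.sub_apply, rs_of_mem hx.1, h2' x hx, sub_zero]

omit [PseudoMetricSpace E] in
theorem eqv_iff {X : Set E} {n : ℕ} {f : (Fin n → E) → k} :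
    P216.AS.Eqv (fun _ : Unit => g) (fun _ : Unit => χ) X f ↔ Eqv g χ X f :=
  ⟨fun h x hx => h () x hx, fun h _ x hx => h x hx⟩

theorem mem_Zc_iff {X : Set E} {n : ℕ} {f : (Fin (n + 1) → E) → k} :
    f ∈ P216.AS.Zc (P216.AS.Cc (fun _ : Unit => g) (fun _ : Unit => χ) X)
      (P216.AS.Zr (fun _ : Unit => g) (fun _ : Unit => χ) X X) n ↔ f ∈ Zs g χ X ∅ n := by
  rw [P216.AS.mem_Zc_abs, eqv_iff, mem_Zs]
  refine and_congr_right fun _ => exists_congr fun ε => and_congr_right fun _ => ?_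
  exact ⟨fun h => ⟨h, fun x hx => absurd (hx.1 0) (notMem_empty _)⟩, fun h => h.1⟩

theorem mem_Bc_iff {X : Set E} {n : ℕ} {f : (Fin (n + 1) → E) → k} (hf : Eqv g χ X f) :
    f ∈ P216.AS.Bc (P216.AS.Cc (fun _ : Unit => g) (fun _ : Unit => χ) X)
      (P216.AS.Zr (fun _ : Unit => g) (fun _ : Unit => χ) X X) n ↔ f ∈ Bs g χ X ∅ n := by
  cases n with
  | zero =>
    rw [P216.AS.mem_Bc_zero, mem_Bs]
    constructor
    · rintro ⟨-, ε, hε, h⟩
      exact ⟨0, fun x _ => by simp, ε, hε, fun x hx => by rw [h x hx, d_zero]; rfl,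
        fun _ _ => rfl⟩
    · rintro ⟨b, hb, ε, hε, h1, h2⟩
      refine ⟨eqv_iff.2 hf, ε, hε, fun x hx => ?_⟩
      rw [h1 x hx]
      exact d_eq_zero fun y _ => h2 y ⟨fun j => j.elim0, fun j => j.elim0⟩
  | succ n =>
    rw [P216.AS.mem_Bc_succ, mem_Bs]
    constructor
    · rintro ⟨b, hb, -, ε, hε, h⟩
      refine ⟨b, eqv_iff.1 hb, ε, hε, fun x hx => ?_, fun x hx => absurd (hx.1 0)
        (notMem_empty _)⟩
      have := h x hx
      rw [Pi.sub_apply, sub_eq_zero] at this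
      exact this
    · rintro ⟨b, hb, ε, hε, h1, -⟩
      refine ⟨b, eqv_iff.2 hb, eqv_iff.2 (hf.sub hb.d), ε, hε, fun x hx => ?_⟩
      change f x - d b x = 0
      rw [h1 x hx, sub_self]

/-- The dimension of the absolute cohomology in the two languages. -/
theorem rank_Ha {X : Set E} (n : ℕ) :
    Module.rank k (P216.AS.Ha (fun _ : Unit => g) (fun _ : Unit => χ) X n) = hh g χ X ∅ n := by
  change qr (P216.AS.Zc (P216.AS.Cc (fun _ : Unit => g) (fun _ : Unit => χ) X)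
      (P216.AS.Zr (fun _ : Unit => g) (fun _ : Unit => χ) X X) n)
    (P216.AS.Bc (P216.AS.Cc (fun _ : Unit => g) (fun _ : Unit => χ) X)
      (P216.AS.Zr (fun _ : Unit => g) (fun _ : Unit => χ) X X) n) = _
  refine le_antisymm (qr_le_of_inj LinearMap.id (fun c hc => mem_Zc_iff.1 hc)
    fun c hc h => (mem_Bc_iff (mem_Zc_iff.1 hc).1).2 h)
    (qr_le_of_inj LinearMap.id (fun c hc => mem_Zc_iff.2 hc)
      fun c hc h => (mem_Bc_iff hc.1).1 h)

/-- A zero restriction map, in the other language. -/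
theorem Zs_le_Bs_of_res {X A : Set E} (hA : A ⊆ X) {n : ℕ}
    (h : ∀ x : P216.AS.Ha (fun _ : Unit => g) (fun _ : Unit => χ) X n,
      P216.AS.res hA n x = 0) : Zs g χ X ∅ n ≤ Bs g χ A ∅ n := by
  intro c hc
  have h1 := h (P216.AS.H.mk c (mem_Zc_iff.2 hc))
  unfold P216.AS.res at h1
  rw [P216.AS.Hinc_mk, P216.AS.H.mk_eq_zero] at h1
  exact (mem_Bc_iff (hc.1.mono hA)).1 h1

end Coh

/-! ### Critical values in an interval -/

theorem exists_finset_crit {ι : Type} [Fintype ι] {ℓ : ι → ℝ} (hℓ : ∀ i, 0 < ℓ i) {s t L : ℝ}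
    (hst : t ≤ s + L) :
    ∃ F : Finset ℝ, P216.AS.Crit ℓ ∩ Icc s t ⊆ F ∧ F.card ≤ ∑ i, (⌊L / ℓ i⌋₊ + 1) := by
  classical
  refine ⟨Finset.univ.biUnion fun i => (Finset.Icc ⌈s / ℓ i⌉₊ ⌊t / ℓ i⌋₊).image
    fun m : ℕ => (m : ℝ) * ℓ i, ?_, ?_⟩
  · rintro x ⟨⟨i, m, -, rfl⟩, hx⟩
    simp only [Finset.coe_biUnion, mem_iUnion, Finset.coe_image]
    refine ⟨i, Finset.mem_coe.2 (Finset.mem_univ i), m, ?_, rfl⟩
    rw [Finset.mem_coe, Finset.mem_Icc]
    constructor
    · refine Nat.ceil_le.2 ?_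
      rw [div_le_iff₀ (hℓ i)]
      exact hx.1
    · refine Nat.le_floor ?_
      rw [le_div_iff₀ (hℓ i)]
      exact hx.2
  · refine Finset.card_biUnion_le.trans (Finset.sum_le_sum fun i _ => ?_)
    refine Finset.card_image_le.trans ?_
    rw [Nat.card_Icc]
    have h1 : ⌊t / ℓ i⌋₊ ≤ ⌊L / ℓ i⌋₊ + ⌈s / ℓ i⌉₊ := by
      refine Nat.lt_succ_iff.1 ((Nat.floor_lt' (Nat.succ_ne_zero _)).2 ?_)
      have e1 : t / ℓ i ≤ L / ℓ i + s / ℓ i := by
        rw [← add_div]
        exact div_le_div_of_nonneg_right (by linarith) (hℓ i).le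
      have e2 := Nat.lt_floor_add_one (L / ℓ i)
      have e3 := Nat.le_ceil (s / ℓ i)
      push_cast
      linarith
    omega

end Vale.Agent.P216.H804

namespace Vale.Agent.P216.GSys

open Vale.Agent.P265.AS (hh hh_triple hh_self hh_le_of_push Zs Bs Zs_restrict)
open H804

variable {Λ : Type} [PseudoMetricSpace Λ] (S : GSys Λ)

theorem inv_X (s : ℝ) : P265.AS.Inv S.τ (S.X s) := fun x =>
  ⟨fun h => by simpa [S.τ_τ] using S.τ_mem s h, fun h => S.τ_mem s h⟩

/-- A deck equivariant homotopy, in the language of `P265`. -/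
theorem isHtpy_of {A X : Set Λ} {D : ℝ → Λ → Λ}
    (h : AS.IsHtpy (fun _ : Unit => S.τ) (fun _ : Unit => S.τ) X X D)
    (hA : ∀ u ∈ Icc (0 : ℝ) 1, MapsTo (D u) A A) : P265.AS.IsHtpy S.τ S.τ X A X A D :=
  ⟨fun u hu x hx => h.mapsX u hu hx, fun u hu _ hx => hA u hu hx,
    fun u hu x hx => h.eqv u hu () x hx, h.uc⟩

/-- No cohomology over an interval without critical values. -/
theorem hh_regular {k : Type} [Field k] (χ : k) {s t : ℝ} (hs : 0 < s) (hst : s ≤ t)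
    (hcrit : ∀ a ∈ Icc s t, a ∉ AS.Crit S.ℓ) (q : ℕ) : hh S.τ χ (S.X t) (S.X s) q = 0 := by
  obtain ⟨D, hD, -, h0, -, hloc⟩ := S.exists_push Nat.prime_three (by norm_num) hs hcrit
  refine REG.chain (R := fun a b => hh S.τ χ (S.X b) (S.X a) q = 0) hst ?_ ?_
  · intro a b c hab hbc h1 h2
    have := hh_triple (g := S.τ) (S.mono _ _ hab) (S.mono _ _ hbc) (S.inv_X b) χ q
    rw [h1, h2, add_zero] at this
    exact le_antisymm this zero_le
  · intro m hm
    obtain ⟨ε, hε, h1⟩ := hloc m hm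
    refine ⟨ε, hε, fun b hb c hc hmb hbc hcm => ?_⟩
    have h2 : hh S.τ χ (S.X c) (S.X b) q ≤ hh S.τ χ (S.X c) (S.X c) q :=
      hh_le_of_push (S.isHtpy_of (hD c hc.2) fun u hu => (hD b hb.2).mapsX u hu)
        (S.mono _ _ hbc) le_rfl (fun x hx => h0 x (S.mono _ _ hc.2 hx))
        (fun x hx => h1 b hb c hc hmb hcm hx) χ q
    rw [hh_self] at h2
    exact le_antisymm h2 zero_le

/-- The contribution of every critical level to the cohomology over `ZMod p` is at most `C`. -/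
def LevelBound : Prop := ∃ C : ℕ, ∀ p : ℕ, ∀ _ : Fact p.Prime, 2 < p → ∀ c : ℝ, 0 < c →
  c ∈ AS.Crit S.ℓ → ∃ e₀ > 0, ∀ s t, c - e₀ < s → s < c → c < t → t < c + e₀ → ∀ m : ℕ,
    ∑ q ∈ Finset.range m, hh S.τ (-1 : ZMod p) (S.X t) (S.X s) q ≤ (C : Cardinal)

theorem sum_hh_le {k : Type} [Field k] {χ : k} {C : ℕ}
    (hC : ∀ c : ℝ, 0 < c → c ∈ AS.Crit S.ℓ → ∃ e₀ > 0, ∀ s t, c - e₀ < s → s < c → c < t →
      t < c + e₀ → ∀ m : ℕ, ∑ q ∈ Finset.range m, hh S.τ χ (S.X t) (S.X s) q ≤ (C : Cardinal))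
    {s : ℝ} (hs : 0 < s) (hsc : s ∉ AS.Crit S.ℓ) (m : ℕ) :
    ∀ (n : ℕ) (F : Finset ℝ), F.card = n → ∀ t, s ≤ t → t ∉ AS.Crit S.ℓ →
      AS.Crit S.ℓ ∩ Icc s t ⊆ F →
      ∑ q ∈ Finset.range m, hh S.τ χ (S.X t) (S.X s) q ≤ ((n * C : ℕ) : Cardinal) := by
  intro n
  induction n with
  | zero =>
    intro F hF t hst ht hsub
    rw [Finset.card_eq_zero] at hF
    have h1 : ∀ a ∈ Icc s t, a ∉ AS.Crit S.ℓ := fun a ha hac => by
      have := hsub ⟨hac, ha⟩
      rw [hF] at this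
      simp at this
    simp [S.hh_regular χ hs hst h1]
  | succ n ih =>
    intro F hF t hst ht hsub
    by_cases hne : ∃ a ∈ Icc s t, a ∈ AS.Crit S.ℓ
    · -- the largest critical value
      classical
      set F' : Finset ℝ := F.filter fun a => a ∈ Icc s t ∧ a ∈ AS.Crit S.ℓ with hF'
      have hmem : ∀ a, a ∈ F' ↔ a ∈ Icc s t ∧ a ∈ AS.Crit S.ℓ := fun a => by
        rw [hF', Finset.mem_filter]
        exact ⟨fun h => h.2, fun h => ⟨hsub ⟨h.2, h.1⟩, h⟩⟩
      have hF'ne : F'.Nonempty := by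
        obtain ⟨a, ha, hac⟩ := hne
        exact ⟨a, (hmem a).2 ⟨ha, hac⟩⟩
      obtain ⟨c, hcF, hcmax⟩ := F'.exists_max_image id hF'ne
      obtain ⟨hcI, hcc⟩ := (hmem c).1 hcF
      have hsc' : s < c := lt_of_le_of_ne hcI.1 fun h => hsc (h ▸ hcc)
      have hct : c < t := lt_of_le_of_ne hcI.2 fun h => ht (h ▸ hcc)
      have hmax : ∀ a ∈ Icc s t, a ∈ AS.Crit S.ℓ → a ≤ c := fun a ha hac =>
        hcmax a ((hmem a).2 ⟨ha, hac⟩)
      obtain ⟨e₀, he₀, hCe⟩ := hC c (hs.trans hsc') hcc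
      -- a level just below
      obtain ⟨a, ha1, ha2, ha3⟩ : ∃ a, a < c ∧ max s (c - e₀) < a ∧ ∀ x ∈ F.erase c, x < c → x < a := by
        have h1 : ∀ᶠ a in 𝓝[<] c, max s (c - e₀) < a :=
          Filter.Eventually.filter_mono nhdsWithin_le_nhds
            (lt_mem_nhds (max_lt hsc' (by linarith)))
        have h2 : ∀ᶠ a in 𝓝[<] c, ∀ x ∈ F.erase c, x < c → x < a := by
          rw [Finset.eventually_all]
          intro x _
          by_cases hxc : x < c
          · exact (Filter.Eventually.filter_mono nhdsWithin_le_nhds (lt_mem_nhds hxc)).mono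
              fun a ha _ => ha
          · exact Filter.Eventually.of_forall fun a h => absurd h hxc
        obtain ⟨a, h3, h4, h5⟩ := (h1.and (h2.and self_mem_nhdsWithin)).exists
        exact ⟨a, h5, h3, h4⟩
      have hsa : s < a := (le_max_left _ _).trans_lt ha2
      have hae : c - e₀ < a := (le_max_right _ _).trans_lt ha2
      have hac : a ∉ AS.Crit S.ℓ := fun h => by
        have h1 : a ∈ F := hsub ⟨h, hsa.le, (ha1.trans hct).le⟩
        exact lt_irrefl a (ha3 a (Finset.mem_erase.2 ⟨ha1.ne, h1⟩) ha1)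
      have hb1 : c < min t (c + e₀ / 2) := lt_min hct (by linarith)
      have hb2 : min t (c + e₀ / 2) ≤ t := min_le_left _ _
      have hb3 : min t (c + e₀ / 2) < c + e₀ := (min_le_right _ _).trans_lt (by linarith)
      set b : ℝ := min t (c + e₀ / 2) with hb
      have hab : a ≤ b := (ha1.trans hb1).le
      have h1 := ih (F.erase c) (by
          have hcF' : c ∈ F := hsub ⟨hcc, hcI⟩
          rw [Finset.card_erase_of_mem hcF', hF]; rfl) a hsa.le hac (by
          rintro x ⟨hx, hx1, hx2⟩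
          rw [Finset.coe_erase]
          exact ⟨hsub ⟨hx, hx1, hx2.trans (ha1.trans hct).le⟩, (hx2.trans_lt ha1).ne⟩)
      have h2 := hCe a b hae ha1 hb1 hb3 m
      have h3 : ∀ q, hh S.τ χ (S.X t) (S.X b) q = 0 := fun q =>
        S.hh_regular χ (hs.trans (hsc'.trans hb1)) hb2
          (fun x hx hxc => absurd (hmax x ⟨(hsc'.trans hb1).le.trans hx.1, hx.2⟩ hxc)
            (not_le.2 (hb1.trans_le hx.1))) q
      have h4 : ∀ q, hh S.τ χ (S.X t) (S.X s) q ≤
          hh S.τ χ (S.X a) (S.X s) q + hh S.τ χ (S.X b) (S.X a) q := fun q => by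
        have e1 := hh_triple (g := S.τ) (S.mono _ _ (hsa.le.trans hab)) (S.mono _ _ hb2)
          (S.inv_X b) χ q
        have e2 := hh_triple (g := S.τ) (S.mono _ _ hsa.le) (S.mono _ _ hab) (S.inv_X a) χ q
        rw [h3 q, add_zero] at e1
        exact e1.trans e2
      calc ∑ q ∈ Finset.range m, hh S.τ χ (S.X t) (S.X s) q
          ≤ ∑ q ∈ Finset.range m, hh S.τ χ (S.X a) (S.X s) q +
            ∑ q ∈ Finset.range m, hh S.τ χ (S.X b) (S.X a) q := by
            rw [← Finset.sum_add_distrib]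
            exact Finset.sum_le_sum fun q _ => h4 q
        _ ≤ ((n * C : ℕ) : Cardinal) + (C : Cardinal) := add_le_add h1 h2
        _ = (((n + 1) * C : ℕ) : Cardinal) := by push_cast; ring
    · push Not at hne
      simp [S.hh_regular χ hs hst hne]

/-- **D6 from D5 and a bound of every critical level.** -/
theorem bound_of_bars (hB : S.Bars) (hL : S.LevelBound) : S.Bound := by
  have := S.fin
  obtain ⟨inst⟩ := nonempty_fintype S.ι
  obtain ⟨B, hB0, hB⟩ := hB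
  obtain ⟨C, hC⟩ := hL
  refine ⟨(∑ i, (⌊(B + 1) / S.ℓ i⌋₊ + 1)) * C, fun p hp hp2 s hs hsc => ?_⟩
  -- a regular level in `[s + B, s + B + 1]`
  obtain ⟨F, hF, hFc⟩ := exists_finset_crit S.ℓ_pos (s := s) (t := s + (B + 1)) (L := B + 1) le_rfl
  obtain ⟨t, ht1, ht2⟩ : ∃ t ∈ Icc (s + B) (s + (B + 1)), t ∉ (F : Set ℝ) := by
    have h1 : (Icc (s + B) (s + (B + 1)) \ (F : Set ℝ)).Nonempty :=
      ((Icc_infinite (by linarith)).sdiff F.finite_toSet).nonempty
    obtain ⟨t, ht⟩ := h1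
    exact ⟨t, ht.1, ht.2⟩
  have hst : s ≤ t := by linarith [ht1.1]
  have htc : t ∉ AS.Crit S.ℓ := fun h => ht2 (hF ⟨h, hst, ht1.2⟩)
  have hsum := S.sum_hh_le (hC p hp hp2) hs hsc
  have hle : ∀ n, Module.rank (ZMod p) (S.V (ZMod p) s n) ≤
      hh S.τ (-1 : ZMod p) (S.X t) (S.X s) (n + 1) := fun n => by
    rw [rank_Ha]
    refine hh_le_of_zero_res (S.inv_X s) ?_
    have h1 : Zs S.τ (-1 : ZMod p) (S.X t) ∅ n ≤ Zs S.τ (-1 : ZMod p) (S.X (s + B)) ∅ n :=
      Zs_restrict (S.mono _ _ ht1.1) le_rfl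
    exact h1.trans (Zs_le_Bs_of_res (S.mono _ _ (by linarith)) (hB p hp hp2 s hs _ n))
  have hK : ∀ m, ∑ n ∈ Finset.range m, Module.rank (ZMod p) (S.V (ZMod p) s n) ≤
      (((∑ i, (⌊(B + 1) / S.ℓ i⌋₊ + 1)) * C : ℕ) : Cardinal) := fun m => by
    have h1 := hsum (m + 1) F.card F rfl t hst htc
      ((inter_subset_inter_right _ (Icc_subset_Icc_right ht1.2)).trans hF)
    rw [Finset.sum_range_succ'] at h1
    calc ∑ n ∈ Finset.range m, Module.rank (ZMod p) (S.V (ZMod p) s n)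
        ≤ ∑ n ∈ Finset.range m, hh S.τ (-1 : ZMod p) (S.X t) (S.X s) (n + 1) :=
          Finset.sum_le_sum fun n _ => hle n
      _ ≤ _ := le_self_add
      _ ≤ _ := h1
      _ ≤ _ := by exact_mod_cast Nat.mul_le_mul_right C hFc
  have hfin : ∀ n, Module.Finite (ZMod p) (S.V (ZMod p) s n) := fun n => by
    rw [← Module.rank_lt_aleph0_iff]
    refine lt_of_le_of_lt ?_ (Cardinal.natCast_lt_aleph0 (n := (∑ i, (⌊(B + 1) / S.ℓ i⌋₊ + 1)) * C))
    refine le_trans ?_ (hK (n + 1))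
    exact Finset.single_le_sum (f := fun n => Module.rank (ZMod p) (S.V (ZMod p) s n))
      (fun _ _ => zero_le) (Finset.self_mem_range_succ n)
  refine ⟨hfin, fun m => ?_⟩
  have h1 := hK m
  have h2 : ∀ n, Module.rank (ZMod p) (S.V (ZMod p) s n) =
      (finrank (ZMod p) (S.V (ZMod p) s n) : Cardinal) := fun n => by
    have := hfin n
    exact (Module.finrank_eq_rank (ZMod p) (S.V (ZMod p) s n)).symm
  simp only [h2] at h1
  exact_mod_cast h1

end Vale.Agent.P216.GSys
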