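import Vale.Agent.P216.H804.Count
import Vale.Agent.P216.H41.Fin3

/-!
# Crossing a critical level (P216, block F1)

A relative class of the pair `(X t, X s)`, `s < c < t` close to the critical level `c`, which is
trivial on a neighbourhood of the critical set is trivial.
-/

open Set Topology

namespace Vale.Agent.P216.GSys

open Vale.Agent.P265.AS (Inv Sm Zs Bs hh qr_le_of_inj Zs_restrict Bs_restrict rs rs_of_mem
  rs_of_notMem rs_eqv d_rs pb pb_apply d_pb d_eq_zero homotopy IsMapP)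
open H41 (rk)

variable {Λ : Type} [PseudoMetricSpace Λ] (S : GSys Λ)

/-- **F1, cochain form.** `W` is a deck invariant neighbourhood of the critical set. -/
theorem crossing {p : ℕ} (hp : p.Prime) (hp2 : 2 < p) {c : ℝ} (hc : 0 < c) {W : Set Λ}
    (hWi : Inv S.τ W) {U : Set Λ} (hU : IsOpen U) (hKU : S.K1 c ∪ S.K2 c ⊆ U)
    (hUW : U ∩ S.X (c + 1) ⊆ W) :
    ∃ e₀ > 0, ∀ s t, c - e₀ < s → s < c → c < t → t < c + e₀ → ∀ (k : Type) [Field k] (χ : k)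
      (q : ℕ), ∀ f ∈ Zs S.τ χ (S.X t) (S.X s) q, f ∈ Bs S.τ χ (W ∩ S.X t) (W ∩ S.X s) q →
        f ∈ Bs S.τ χ (S.X t) (S.X s) q := by
  obtain ⟨D, hDc, hD0, hDm, hDτ, -, -, hDK, hDp⟩ := S.descent p hp hp2 (c + 1) (by linarith)
  have h1I : (1 : ℝ) ∈ Icc (0 : ℝ) 1 := ⟨zero_le_one, le_rfl⟩
  set K : Set Λ := S.K1 c ∪ S.K2 c with hK
  have hKc : IsCompact K := (S.K1_compact c hc).union (S.K2_compact c hc)
  have hKX : K ⊆ S.X (c + 1) :=
    (union_subset (S.K1_sub c hc) (S.K2_sub c hc)).trans (S.mono _ _ (by linarith))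
  have hDK' : MapsTo (D 1) K K := by
    rintro x (hx | hx)
    · exact Or.inl ((hDK 1 h1I c hc (by linarith)).1 hx)
    · exact Or.inr ((hDK 1 h1I c hc (by linarith)).2 hx)
  -- a smaller neighbourhood
  obtain ⟨η, hη, hηU⟩ := hKc.exists_thickening_subset_open hU hKU
  set U₂ : Set Λ := Metric.thickening (η / 2) K with hU₂
  have hU₂o : IsOpen U₂ := Metric.isOpen_thickening
  have hKU₂ : K ⊆ U₂ := Metric.self_subset_thickening (by positivity) K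
  have hthick : ∀ x ∈ U₂, ∀ y ∈ S.X (c + 1), dist x y < η / 2 → y ∈ W := by
    intro x hx y hy hxy
    refine hUW ⟨hηU ?_, hy⟩
    rw [Metric.mem_thickening_iff] at hx ⊢
    obtain ⟨z, hz, hxz⟩ := hx
    refine ⟨z, hz, ?_⟩
    have := dist_triangle y x z
    rw [dist_comm y x] at this
    linarith
  -- the preimage under the time one map
  have hD1c : ContinuousOn (D 1) (S.X (c + 1)) := by
    have h1 : ContinuousOn (fun x : Λ => ((1 : ℝ), x)) (S.X (c + 1)) := by fun_prop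
    exact hDc.comp h1 fun x hx => ⟨h1I, hx⟩
  obtain ⟨U₁, hU₁o, hU₁⟩ := continuousOn_iff'.1 hD1c U₂ hU₂o
  have hKU₁ : K ⊆ U₁ := fun x hx => by
    have h1 : x ∈ U₁ ∩ S.X (c + 1) := hU₁ ▸ ⟨hKU₂ (hDK' hx), hKX hx⟩
    exact h1.1
  have hU₁' : ∀ x ∈ S.X (c + 1), x ∈ U₁ → D 1 x ∈ U₂ := fun x hx hxU => by
    have h1 : x ∈ D 1 ⁻¹' U₂ ∩ S.X (c + 1) := hU₁.symm ▸ ⟨hxU, hx⟩
    exact h1.1
  obtain ⟨ε, hε, hpass⟩ := hDp c hc (by linarith) U₁ hU₁o hKU₁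
  refine ⟨min ε 1, lt_min hε one_pos, fun s t hs1 hs2 ht1 ht2 k _ χ q f hf hfW => ?_⟩
  have e1 : min ε 1 ≤ ε := min_le_left _ _
  have e2 : min ε 1 ≤ 1 := min_le_right _ _
  have htT : S.X t ⊆ S.X (c + 1) := S.mono _ _ (by linarith)
  have hst : S.X s ⊆ S.X t := S.mono _ _ (by linarith)
  -- the homotopy `id ≃ D 1`
  have hH : P265.AS.IsHtpy S.τ S.τ (S.X t) (S.X s) (S.X t) (S.X s) D :=
    ⟨fun u hu x hx => hDm u hu t (by linarith) hx, fun u hu x hx => hDm u hu s (by linarith) hx,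
      fun u hu x hx => hDτ u hu x (htT hx),
      P265.AS.uc_of_compact (S.compact t) (hDc.mono (prod_mono le_rfl htT))⟩
  have hh1 := homotopy hH hst hf
  have hpb0 : ∀ x, Sm (S.X t) 1 x → pb (D 0) f x = f x := fun x hx => by
    rw [pb_apply]
    congr 1
    funext i
    exact hD0 _ (htT (hx.1 i))
  -- the primitive of `f` near `K`
  obtain ⟨b, hb, ε₂, hε₂, h3, h4⟩ := hfW
  have hWt : Inv S.τ (W ∩ S.X t) := fun x => and_congr (hWi x) (S.inv_X t x)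
  set b' : (Fin q → Λ) → k := rs k (W ∩ S.X t) q b with hb'
  have hb'e : ∀ Y : Set Λ, P265.AS.Eqv S.τ χ Y b' := fun Y => rs_eqv hWt hb
  obtain ⟨-, ε₁, hε₁, -, h2⟩ := hf
  have hb's : ∀ {n : ℕ} {y : Fin n → Λ}, Sm (S.X s) (min ε₁ ε₂) y → ∀ z : Fin q → Λ,
      P265.AS.Sub z y → b' z = 0 := by
    intro n y hy z hz
    by_cases hzW : ∀ i, z i ∈ W ∩ S.X t
    · rw [hb', rs_of_mem hzW]
      have hz' := hy.sub hz
      exact h4 z ⟨fun i => ⟨(hzW i).1, hz'.1 i⟩, fun i j => (hz'.2 i j).trans_le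
        (min_le_right _ _)⟩
    · exact rs_of_notMem hzW
  -- `f = d b'` on the small tuples of `X s ∪ (U₂ ∩ X t)`
  set ε₃ : ℝ := min (min ε₁ ε₂) (η / 2) with hε₃
  have hε₃p : 0 < ε₃ := lt_min (lt_min hε₁ hε₂) (by positivity)
  have key : ∀ x : Fin (q + 1) → Λ, Sm (S.X t) ε₃ x → (∀ i, x i ∈ S.X s ∨ x i ∈ U₂) →
      f x = P265.AS.d b' x := by
    intro x hx hx'
    by_cases hA : ∀ i, x i ∈ S.X s
    · have hxA : Sm (S.X s) (min ε₁ ε₂) x := ⟨hA, fun i j => (hx.2 i j).trans_le (min_le_left _ _)⟩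
      rw [h2 x (hxA.mono le_rfl (min_le_left _ _)), d_eq_zero fun z hz => hb's hxA z hz]
    · push Not at hA
      obtain ⟨i, hi⟩ := hA
      have hiU : x i ∈ U₂ := (hx' i).resolve_left hi
      have hxW : ∀ j, x j ∈ W ∩ S.X t := fun j =>
        ⟨hthick _ hiU _ (htT (hx.1 j)) ((hx.2 i j).trans_le (min_le_right _ _)), hx.1 j⟩
      rw [d_rs hxW]
      exact h3 x ⟨hxW, fun i j => (hx.2 i j).trans_le ((min_le_left _ _).trans
        (min_le_right _ _))⟩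
  have hDU : ∀ x ∈ S.X t, D 1 x ∈ S.X s ∨ D 1 x ∈ U₂ := by
    intro x hx
    by_cases hxU : x ∈ U₁
    · exact Or.inr (hU₁' x (htT hx) hxU)
    · exact Or.inl (S.mono _ _ (by linarith) (hpass x (S.mono _ _ (by linarith) hx) hxU))
  -- pull back by `D 1`
  obtain ⟨δ, hδ, hδ'⟩ := hH.uc ε₃ hε₃p
  have hmap : ∀ {n : ℕ} {Y : Set Λ} (_ : Y ⊆ S.X t) (_ : MapsTo (D 1) Y Y) {x : Fin n → Λ},
      Sm Y δ x → Sm Y ε₃ (D 1 ∘ x) := by
    intro n Y hY hYm x hx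
    exact ⟨fun i => hYm (hx.1 i), fun i j => hδ' 1 h1I 1 h1I _ (hY (hx.1 i)) _ (hY (hx.1 j))
      (by simpa using hδ) (hx.2 i j)⟩
  have h5 : pb (D 1) f ∈ Bs S.τ χ (S.X t) (S.X s) q := by
    refine ⟨pb (D 1) b', ?_, δ, hδ, fun x hx => ?_, fun x hx => ?_⟩
    · intro x hx
      rw [pb_apply, pb_apply, ← hb'e (S.X t) (D 1 ∘ x) fun i => hH.mapsX 1 h1I _ (hx i)]
      congr 1
      funext i
      exact hH.eqv 1 h1I _ (hx i)
    · rw [d_pb, pb_apply, pb_apply]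
      exact key _ (hmap le_rfl (fun x hx => hH.mapsX 1 h1I x hx) hx) fun i => hDU _ (hx.1 i)
    · rw [pb_apply]
      refine hb's ((hmap hst (fun x hx => hH.mapsA 1 h1I x hx) hx).mono le_rfl
        (min_le_left _ _)) _ (P265.AS.Sub.refl _)
  have h6 := (Bs S.τ χ (S.X t) (S.X s) q).sub_mem h5 hh1
  rw [sub_sub_cancel] at h6
  exact P265.AS.Bs_congr h6 one_pos fun x hx => (hpb0 x hx).symm

/-- **F1, rank form.** -/
theorem hh_le_rk {p : ℕ} (hp : p.Prime) (hp2 : 2 < p) {c : ℝ} (hc : 0 < c) {W : Set Λ}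
    (hWi : Inv S.τ W) {U : Set Λ} (hU : IsOpen U) (hKU : S.K1 c ∪ S.K2 c ⊆ U)
    (hUW : U ∩ S.X (c + 1) ⊆ W) :
    ∃ e₀ > 0, ∀ s t, c - e₀ < s → s < c → c < t → t < c + e₀ → ∀ (k : Type) [Field k] (χ : k)
      (q : ℕ) (W₁ : Set Λ), hh S.τ χ (S.X t) (S.X s) q ≤
        rk S.τ χ (W₁ ∩ S.X t) (W₁ ∩ S.X s) (W ∩ S.X t) (W ∩ S.X s) q := by
  obtain ⟨e₀, he₀, h⟩ := S.crossing hp hp2 hc hWi hU hKU hUW
  refine ⟨e₀, he₀, fun s t h1 h2 h3 h4 k _ χ q W₁ => ?_⟩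
  exact qr_le_of_inj LinearMap.id
    (fun f hf => Zs_restrict inter_subset_right inter_subset_right hf)
    fun f hf hfB => h s t h1 h2 h3 h4 k χ q f hf hfB

end Vale.Agent.P216.GSys
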