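import Vale.Agent.P216.GM.Spec
import Vale.Agent.P216.GM.Arc
import Vale.Agent.P216.H41.MV
import Vale.Agent.P216.LS.Stmt
import Vale.Agent.P216.H804.F1

/-!
# Twisted local ranks of finite disjoint unions; block F1 (P216)
-/

open Set Topology

namespace Vale.Agent.P216.GM

open Vale.Agent.P265.AS Vale.Agent.P216.H41 L250 LS H288 H494

/-- The function `LT` only depends on small radii. -/
theorem LT.exists_le {E : Type} [PseudoMetricSpace E] {g : E → E} {X : ℝ → Set E} {a : ℝ}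
    {K : Set E} {D : ℕ → ℕ} (h : LT g X a K D) {r : ℝ} (hr : 0 < r) {ρ : ℝ} (hρ : 0 < ρ) :
    ∃ r' > 0, r' ≤ ρ ∧ ∃ e₀ > 0, ∀ s t, a - e₀ < s → s < a → a < t → t < a + e₀ →
      ∀ (k : Type) [Field k] (q : ℕ), ∀ r₁, r ≤ r₁ → ∀ r₂, r₂ ≤ r' →
      rk g (-1 : k) (nb K r₁ ∩ X t) (nb K r₁ ∩ X s) (nb K r₂ ∩ X t) (nb K r₂ ∩ X s) q ≤
        (D q : Cardinal) := by
  obtain ⟨r', hr', e₀, he₀, h1⟩ := h r hr
  refine ⟨min r' ρ, lt_min hr' hρ, min_le_right _ _, e₀, he₀,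
    fun s t h2 h3 h4 h5 k _ q r₁ hr₁ r₂ hr₂ => ?_⟩
  refine le_trans (rk_mono ?_ ?_ ?_ ?_ q) (h1 s t h2 h3 h4 h5 k q)
  · exact inter_subset_inter_left _ (nb_mono le_rfl hr₁)
  · exact inter_subset_inter_left _ (nb_mono le_rfl hr₁)
  · exact inter_subset_inter_left _ (nb_mono le_rfl (hr₂.trans (min_le_left _ _)))
  · exact inter_subset_inter_left _ (nb_mono le_rfl (hr₂.trans (min_le_left _ _)))

theorem inv_nb {E : Type} [PseudoMetricSpace E] {g : E → E} (hg : Isometry g)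
    (hgg : ∀ x, g (g x) = x) {K : Set E} (hK : ∀ x ∈ K, g x ∈ K) (r : ℝ) : Inv g (nb K r) := by
  have key : ∀ x ∈ nb K r, g x ∈ nb K r := by
    rintro x ⟨y, hy, hxy⟩
    exact ⟨g y, hK y hy, by rwa [hg.dist_eq]⟩
  exact fun x => ⟨fun h => by simpa [hgg] using key _ h, key x⟩

theorem LT.empty {E : Type} [PseudoMetricSpace E] {g : E → E} {X : ℝ → Set E} {a : ℝ} :
    LT g X a (∅ : Set E) fun _ => 0 := by
  intro r _
  refine ⟨1, one_pos, 1, one_pos, fun s t _ _ _ _ k _ q => ?_⟩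
  simp only [nb_empty, empty_inter, rk_empty, Nat.cast_zero, le_refl]

/-- Disjoint compact sets. -/
theorem LT.union_disjoint {E : Type} [MetricSpace E] {g : E → E} (hg : Isometry g)
    (hgg : ∀ x, g (g x) = x) {X : ℝ → Set E} (hX : Monotone X) (hgX : ∀ s, Inv g (X s)) {a : ℝ}
    {K L : Set E} {D₁ D₂ : ℕ → ℕ} (hK : IsCompact K) (hL : IsCompact L) (hd : Disjoint K L)
    (hgK : ∀ x ∈ K, g x ∈ K) (hgL : ∀ x ∈ L, g x ∈ L) (h₁ : LT g X a K D₁) (h₂ : LT g X a L D₂) :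
    LT g X a (K ∪ L) fun q => D₁ q + D₂ q := by
  intro r hr
  obtain ⟨r₁, hr₁, -, e₁, he₁, H₁⟩ := h₁.exists_le hr hr
  obtain ⟨r₂, hr₂, -, e₂, he₂, H₂⟩ := h₂.exists_le hr hr
  obtain ⟨δ, hδ, hδs⟩ := exists_nb_inter hK hL one_pos
  rw [hd.inter_eq, nb_empty, subset_empty_iff] at hδs
  set ρ : ℝ := min δ (min r₁ r₂) with hρdef
  have hρ : 0 < ρ := lt_min hδ (lt_min hr₁ hr₂)
  have hρδ : ρ ≤ δ := min_le_left _ _
  have hρ₁ : ρ ≤ r₁ := (min_le_right _ _).trans (min_le_left _ _)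
  have hρ₂ : ρ ≤ r₂ := (min_le_right _ _).trans (min_le_right _ _)
  refine ⟨ρ / 2, half_pos hρ, min e₁ e₂, lt_min he₁ he₂, fun s t h3 h4 h5 h6 k _ q => ?_⟩
  have hQP : X s ⊆ X t := hX (by linarith)
  have a1 : ∀ q, rk g (-1 : k) (nb K r ∩ X t) (nb K r ∩ X s) (nb K ρ ∩ X t) (nb K ρ ∩ X s) q ≤
      (D₁ q : Cardinal) := fun q =>
    H₁ s t (by linarith [min_le_left e₁ e₂]) h4 h5 (by linarith [min_le_left e₁ e₂]) k q r le_rfl
      ρ hρ₁
  have a2 : ∀ q, rk g (-1 : k) (nb L r ∩ X t) (nb L r ∩ X s) (nb L ρ ∩ X t) (nb L ρ ∩ X s) q ≤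
      (D₂ q : Cardinal) := fun q =>
    H₂ s t (by linarith [min_le_right e₁ e₂]) h4 h5 (by linarith [min_le_right e₁ e₂]) k q r le_rfl
      ρ hρ₂
  have hemp : nb K ρ ∩ nb L ρ = ∅ := by
    rw [← subset_empty_iff, ← hδs]
    exact inter_subset_inter (nb_mono le_rfl hρδ) (nb_mono le_rfl hρδ)
  have hA : ∀ x ∈ nb K (ρ / 2) ∩ X t, ∀ y ∈ (nb K (ρ / 2) ∪ nb L (ρ / 2)) ∩ X t,
      dist x y < ρ / 2 → y ∈ nb K ρ := nb_room
  have hB : ∀ x ∈ nb L (ρ / 2) ∩ X t, ∀ y ∈ (nb K (ρ / 2) ∪ nb L (ρ / 2)) ∩ X t,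
      dist x y < ρ / 2 → y ∈ nb L ρ := nb_room
  have h2K : nb K (ρ / 2) ⊆ nb K ρ := nb_mono le_rfl (by linarith)
  have h2L : nb L (ρ / 2) ⊆ nb L ρ := nb_mono le_rfl (by linarith)
  have iK : ∀ r, Inv g (nb K r) := inv_nb hg hgg hgK
  have iL : ∀ r, Inv g (nb L r) := inv_nb hg hgg hgL
  rw [nb_union, nb_union]
  cases q with
  | zero =>
    refine (rk_mv_zero (A₁ := nb K ρ) (B₁ := nb L ρ) (A₂ := nb K ρ) (B₂ := nb L ρ)
      (δ := ρ / 2) hQP (half_pos hρ) hA hB le_rfl le_rfl h2K h2L (-1 : k)).trans ?_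
    refine (add_le_add (a1 0) (a2 0)).trans ?_
    push_cast
    exact le_rfl
  | succ q =>
    refine (rk_mv (A₁ := nb K ρ) (B₁ := nb L ρ) (A₂ := nb K ρ) (B₂ := nb L ρ)
      (δ := ρ / 2) hQP (half_pos hρ) (iK _) (iK _) (iK _) (iL _) (iL _) (hgX t) hA hB
      le_rfl le_rfl h2K h2L (-1 : k) q).trans ?_
    rw [hemp, empty_inter, empty_inter, rk_empty, add_zero]
    refine (add_le_add (a1 _) (a2 _)).trans ?_
    push_cast
    exact le_rfl

/-- Finite disjoint unions. -/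
theorem LT.biUnion_finset {E : Type} [MetricSpace E] {g : E → E} (hg : Isometry g)
    (hgg : ∀ x, g (g x) = x) {X : ℝ → Set E} (hX : Monotone X) (hgX : ∀ s, Inv g (X s)) {a : ℝ}
    {ι : Type*} {K : ι → Set E} {D : ι → ℕ → ℕ}
    (s : Finset ι) (hK : ∀ i ∈ s, IsCompact (K i)) (hgK : ∀ i ∈ s, ∀ x ∈ K i, g x ∈ K i)
    (hd : ∀ i ∈ s, ∀ j ∈ s, i ≠ j → Disjoint (K i) (K j)) (h : ∀ i ∈ s, LT g X a (K i) (D i)) :
    LT g X a (⋃ i ∈ s, K i) fun q => ∑ i ∈ s, D i q := by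
  classical
  induction s using Finset.induction_on with
  | empty => simpa using LT.empty (g := g) (X := X) (a := a)
  | insert i s hi ih =>
    rw [Finset.set_biUnion_insert]
    simp only [Finset.sum_insert hi]
    refine LT.union_disjoint hg hgg hX hgX (hK i (Finset.mem_insert_self i s))
      (s.isCompact_biUnion fun j hj => hK j (Finset.mem_insert_of_mem hj)) ?_
      (hgK i (Finset.mem_insert_self i s)) ?_
      (h i (Finset.mem_insert_self i s)) (ih (fun j hj => hK j (Finset.mem_insert_of_mem hj))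
        (fun j hj => hgK j (Finset.mem_insert_of_mem hj))
        (fun j hj l hl => hd j (Finset.mem_insert_of_mem hj) l (Finset.mem_insert_of_mem hl))
        fun j hj => h j (Finset.mem_insert_of_mem hj))
    · rw [Set.disjoint_iUnion₂_right]
      exact fun j hj => hd i (Finset.mem_insert_self i s) j (Finset.mem_insert_of_mem hj)
        fun hij => hi (hij ▸ hj)
    · intro x hx
      obtain ⟨j, hj, hxj⟩ := mem_iUnion₂.1 hx
      exact mem_iUnion₂.2 ⟨j, hj, hgK j (Finset.mem_insert_of_mem hj) x hxj⟩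

/-! ### F1 -/

section

variable {M : Type} [MetricSpace M]

theorem cov_biUnion (H : Hol M) (R : Finset (LM M)) :
    cov H (⋃ g ∈ R, orb g) = ⋃ g ∈ R, cov H (orb g) := by
  ext q
  simp only [cov, mem_ofPred_eq, mem_iUnion]
  constructor
  · rintro ⟨⟨g, hg, h⟩, h2⟩
    exact ⟨g, hg, h, h2⟩
  · rintro ⟨g, hg, h, h2⟩
    exact ⟨⟨g, hg, h⟩, h2⟩

theorem cov_union (H : Hol M) (A B : Set (LM M)) : cov H (A ∪ B) = cov H A ∪ cov H B := by
  ext q
  simp only [cov, mem_ofPred_eq, mem_union]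
  tauto

theorem inv_XT (H : Hol M) (s : ℝ) : Inv deckC (XT H s) := fun _ => deckC_mem_iff

/-- **Block F1** from the descent. -/
theorem f1_of_descent [CompactSpace M] (hD : ∀ (H : Hol M) (G : GeoList M), DescentStmt H G) :
    F1 M := by
  intro H G a ha R hRK hRU hRd D hLT
  have hKc : ∀ g ∈ R, IsCompact (cov H (orb g)) := fun g hg => by
    rcases hRK hg with h | h
    · exact isCompact_cov H (isCompact_orb_KK (Or.inl rfl) ha h)
        ((orb_subset_KK h).trans (KK_subset_XE (Or.inl rfl) ha.le))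
    · exact isCompact_cov H (isCompact_orb_KK (Or.inr rfl) ha h)
        ((orb_subset_KK h).trans (KK_subset_XE (Or.inr rfl) ha.le))
  have hLT' : LT deckC (XT H) a (⋃ g ∈ R, cov H (orb g)) fun q => ∑ g ∈ R, D g q :=
    LT.biUnion_finset isometry_deckC deckC_deckC XT_mono (inv_XT H) R hKc
      (fun g _ x hx => deck_mem_cov hx)
      (fun g hg g' hg' hne => disjoint_cov H (hRd g hg g' hg' hne)) hLT
  set K : Set (LM M × ℂ) := ⋃ g ∈ R, cov H (orb g) with hKdef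
  have hKeq : Kt G H 1 a ∪ Kt G H (-1) a = K := by
    rw [Kt, Kt, ← cov_union, hRU, cov_biUnion]
  have hgK : ∀ x ∈ K, deckC x ∈ K := fun x hx => by
    obtain ⟨j, hj, hxj⟩ := mem_iUnion₂.1 hx
    exact mem_iUnion₂.2 ⟨j, hj, deck_mem_cov hxj⟩
  obtain ⟨r', hr', e₁, he₁, h1⟩ := hLT' 1 one_pos
  obtain ⟨e₂, he₂, h2⟩ := (mkGSys H G (hD H G)).hh_le_rk Nat.prime_three (by norm_num) ha
    (W := nb K r') (U := Metric.thickening r' K) (inv_nb isometry_deckC deckC_deckC hgK r')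
    Metric.isOpen_thickening (by
      change Kt G H 1 a ∪ Kt G H (-1) a ⊆ _
      rw [hKeq]
      exact Metric.self_subset_thickening hr' K) (by
      rintro x ⟨hx, -⟩
      obtain ⟨y, hy, hxy⟩ := Metric.mem_thickening_iff.1 hx
      exact ⟨y, hy, hxy.le⟩)
  refine ⟨min e₁ e₂, lt_min he₁ he₂, fun s t h3 h4 h5 h6 k _ q => ?_⟩
  have l1 := min_le_left e₁ e₂
  have l2 := min_le_right e₁ e₂
  exact (h2 s t (by linarith) h4 h5 (by linarith) k (-1) q (nb K 1)).trans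
    (h1 s t (by linarith) h4 h5 (by linarith) k q)

theorem f1 [CompactSpace M] {ρ : ℝ} (hρ : 0 < ρ) (h : UniqSeg M ρ) : F1 M :=
  f1_of_descent fun H G => descentStmt H G hρ h

end

end Vale.Agent.P216.GM
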